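import Vale.Agent.P038.H38.Strong
import Vale.Agent.P038.H71.Plan

/-!
# P038 (H166): level-0 pairs, the columns and the fair allocation (definitions)
-/

namespace Vale.Agent.P038.H166

open Finset Vale.Agent.P038.H139

variable {V : Type*} [Fintype V] [DecidableEq V]

/-- Submodular set functions. -/
def Subm (c : Finset V → ℝ) : Prop := ∀ A B, c (A ∪ B) + c (A ∩ B) ≤ c A + c B

/-- Level-0 pairs of families. -/
structure Lev (D : OGraph V) (R S : V → Finset V) : Prop where
  left : ∀ a, cl D {a} ⊆ R a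
  right : ∀ a, cl D {a} ⊆ S a
  orth : ∀ a x, a ≠ x → x ∈ R a → a ∉ S x

/-- `∑ w_a w(R_a)`. -/
noncomputable def SW (w : V → ℝ) (R : V → Finset V) : ℝ := ∑ a, w a * W w (R a)

/-- The energy `∑ w_a (w(N[R_a]) - w(R_a))`. -/
noncomputable def E0 (D : OGraph V) (w : V → ℝ) (R : V → Finset V) : ℝ :=
  SW w (fun a => cl D (R a)) - SW w R

/-- Column of open cells: `{p : q ∉ R_p, p ∉ S_q}`. -/
noncomputable def Oc (R S : V → Finset V) (q : V) : Finset V :=
  Finset.univ.filter fun p => q ∉ R p ∧ p ∉ S q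

/-- Row of open cells: `{q : q ∉ R_p, p ∉ S_q}`. -/
noncomputable def Or' (R S : V → Finset V) (p : V) : Finset V :=
  Finset.univ.filter fun q => q ∉ R p ∧ p ∉ S q

open Classical in
/-- The left interior: `X_a = {x : x ∈ R_{a'} for all a' with a ∈ N[a']}`. -/
noncomputable def Li (D : OGraph V) (R : V → Finset V) (a : V) : Finset V :=
  Finset.univ.filter fun x => ∀ a', a ∈ cl D {a'} → x ∈ R a'

open Classical in
/-- `T2` in column `g`: `{p : g ∉ N[R_p], some q with g ∈ N[q] has p ∉ S_q}`. -/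
noncomputable def T2c (D : OGraph V) (R S : V → Finset V) (g : V) : Finset V :=
  Finset.univ.filter fun p => g ∉ cl D (R p) ∧ ∃ q, g ∈ cl D {q} ∧ p ∉ S q

open Classical in
/-- `F_g = ⋂ N[S_q]` over the `q` with `g ∈ N[q]`. -/
noncomputable def Fg (D : OGraph V) (S : V → Finset V) (g : V) : Finset V :=
  Finset.univ.filter fun d => ∀ q, g ∈ cl D {q} → d ∈ cl D (S q)

/-- Cost in column `q`. -/
noncomputable def c1 (D : OGraph V) (w : V → ℝ) (S : V → Finset V) (q : V) (K : Finset V) : ℝ :=
  W w (cl D K \ cl D (S q))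

/-- Cost in column `g` of the next level. -/
noncomputable def c2 (D : OGraph V) (w : V → ℝ) (S : V → Finset V) (g : V) (K : Finset V) : ℝ :=
  W w (cl D K \ Fg D S g)

end Vale.Agent.P038.H166
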